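import Vale.Agent.P127.SPL

/-! # P127 Fou/Sel: choice of the best frequency. -/

namespace Vale.Agent.P127

open Finset
open scoped Classical

theorem fou_sel {n : ℕ} {τ : Type} (T : Finset τ) (ψ : τ → Fin n → ℝ) {σ N L Z0 P Q K' : ℝ}
    (h0 : 0 < σ) (hN : 1 ≤ N) (hL : 1 ≤ L) (hZ : 0 < Z0) (hP : 0 < P) (hPQ : P ≤ L * Q)
    (hNQ : N ≤ Q) (hQN : Q ≤ L * N) (hK' : 2 * L ^ 4 ≤ K') (hT : (T.card : ℝ) ≤ L * N)
    (Ξ : Finset ℤ) (hΞ : ∀ i ∈ Ξ, Q / L ≤ |(i : ℝ)| ∧ |(i : ℝ)| ≤ Q)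
    (hnc : ∀ i0 r : ℝ, 1 ≤ r →
      ((Ξ.filter fun i : ℤ => |(i : ℝ) - i0| ≤ r).card : ℝ) ≤ L * Z0 * (r / Q) ^ σ)
    (Ctr : Finset (Fin n → ℝ)) (hC : (Ctr.card : ℝ) ≤ L * N) (GG : Finset ((ℤ × τ) × (ℤ × τ)))
    (hG : GG ⊆ (Ξ ×ˢ T) ×ˢ (Ξ ×ˢ T)) (hGc : (N * Z0) ^ 2 / L ≤ GG.card)
    (hGs : ∀ q ∈ GG, ∃ s ∈ Ctr,
      ‖((q.1.1 : ℝ) / P) • ψ q.1.2 - ((q.2.1 : ℝ) / P) • ψ q.2.2 - s‖ ≤ 1) :
    SumD σ N K' T ψ := by
  have hQ : 0 < Q := by linarith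
  have hL0 : 0 < L := by linarith
  have hN0 : 0 < N := by linarith
  have l2 : L ≤ L ^ 2 := le_self_pow₀ hL two_ne_zero
  have l3 : L ^ 2 ≤ L ^ 3 := pow_le_pow_right₀ hL (by norm_num)
  have l4 : L ^ 3 ≤ L ^ 4 := pow_le_pow_right₀ hL (by norm_num)
  have hLK : L ≤ K' := by linarith
  have hΞc : (Ξ.card : ℝ) ≤ L * Z0 := by
    have := hnc 0 Q (hN.trans hNQ)
    rwa [filter_true_of_mem fun i hi => by simpa using (hΞ i hi).2, div_self hQ.ne',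
      Real.one_rpow, mul_one] at this
  have mG : ∀ q ∈ GG, (q.1.1 ∈ Ξ ∧ q.1.2 ∈ T) ∧ q.2.1 ∈ Ξ ∧ q.2.2 ∈ T := fun q hq => by
    simpa only [mem_product] using hG hq
  obtain ⟨F, hF, hFc, hFi⟩ := big_comb GG fun q => q.1.1
  have hFc' : N ^ 2 * Z0 / L ^ 2 ≤ F.card := by
    have h2 : (N * Z0) ^ 2 / L ≤ L * Z0 * F.card := by
      refine hGc.trans (hFc.trans (mul_le_mul_of_nonneg_right
        ((Nat.cast_le.2 (card_le_card fun i hi => ?_)).trans hΞc) (Nat.cast_nonneg _)))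
      simp only [mem_image] at hi
      obtain ⟨q, hq, rfl⟩ := hi
      exact (mG q hq).1.1
    rw [div_le_iff₀ hL0] at h2
    rw [div_le_iff₀ (by positivity)]
    exact le_of_mul_le_mul_left (by linarith) hZ
  obtain ⟨q0, hq0⟩ : F.Nonempty :=
    card_pos.1 (Nat.cast_pos.1 (lt_of_lt_of_le (by positivity : (0 : ℝ) < _) hFc'))
  obtain ⟨i, hi⟩ : ∃ i : ℤ, i = q0.1.1 := ⟨_, rfl⟩
  have hFi' : ∀ q ∈ F, q.1.1 = i := fun q hq => hi ▸ hFi q hq q0 hq0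
  obtain ⟨i1, i2⟩ := hΞ i (hi ▸ (mG q0 (hF hq0)).1.1)
  have i0 : 0 < |(i : ℝ)| := lt_of_lt_of_le (by positivity) i1
  have i0' : (i : ℝ) ≠ 0 := abs_pos.1 i0
  rw [div_le_iff₀ hL0] at i1
  have inj : ∀ (i' : ℤ) (U : Finset (τ × τ)),
      (∀ q ∈ F, q.2.1 = i' → (q.1.2, q.2.2) ∈ U) → (F.filter fun q => q.2.1 = i').card ≤ U.card :=
    fun i' U hU => card_le_card_of_injOn (fun q => (q.1.2, q.2.2))
      (fun q hq => hU q (mem_filter.1 hq).1 (mem_filter.1 hq).2) fun q hq q' hq' e => by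
        obtain ⟨a1, a2⟩ := mem_filter.1 hq
        obtain ⟨b1, b2⟩ := mem_filter.1 hq'
        obtain ⟨e1, e2⟩ := Prod.mk.inj e
        exact Prod.ext (Prod.ext ((hFi' q a1).trans (hFi' q' b1).symm) e1)
          (Prod.ext (a2.trans b2.symm) e2)
  obtain ⟨Ξ', hΞ'⟩ : ∃ Ξ' : Finset ℤ, Ξ' = Ξ.filter fun i' =>
      N ^ 2 / (2 * L ^ 3) ≤ ((F.filter fun q => q.2.1 = i').card : ℝ) := ⟨_, rfl⟩
  have hsub : Ξ' ⊆ Ξ := hΞ' ▸ filter_subset _ _
  have hΞc' : Z0 / (2 * L ^ 4) ≤ Ξ'.card := by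
    have h1 : (F.card : ℝ) = ∑ i' ∈ Ξ, ((F.filter fun q => q.2.1 = i').card : ℝ) := by
      rw [card_eq_sum_card_fiberwise (f := fun q => q.2.1) (s := F) (t := Ξ)
        fun q hq => (mG q (hF hq)).2.1, Nat.cast_sum]
    have h2 : ∑ i' ∈ Ξ, ((F.filter fun q => q.2.1 = i').card : ℝ) ≤
        ∑ i' ∈ Ξ, ((if i' ∈ Ξ' then (L * N) ^ 2 else 0) + N ^ 2 / (2 * L ^ 3)) := by
      refine sum_le_sum fun i' hi' => ?_
      split_ifs with h
      · have a1 := inj i' (T ×ˢ T) fun q hq _ =>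
          mem_product.2 ⟨(mG q (hF hq)).1.2, (mG q (hF hq)).2.2⟩
        have a2 : ((F.filter fun q => q.2.1 = i').card : ℝ) ≤ T.card * T.card := by
          rw [card_product] at a1
          exact_mod_cast a1
        have a3 : (T.card : ℝ) * T.card ≤ (L * N) * (L * N) := by gcongr
        have a4 : 0 ≤ N ^ 2 / (2 * L ^ 3) := by positivity
        linarith
      · rw [hΞ', mem_filter] at h
        have := not_le.1 fun a => h ⟨hi', a⟩
        linarith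
    rw [sum_add_distrib, ← sum_filter, filter_mem_eq_inter, inter_eq_right.2 hsub, sum_const,
      sum_const, nsmul_eq_mul, nsmul_eq_mul] at h2
    have h3 : (Ξ.card : ℝ) * (N ^ 2 / (2 * L ^ 3)) ≤ L * Z0 * (N ^ 2 / (2 * L ^ 3)) := by gcongr
    have h4 : L * Z0 * (N ^ 2 / (2 * L ^ 3)) = N ^ 2 * Z0 / L ^ 2 / 2 := by field_simp
    have h5 : Z0 / (2 * L ^ 4) * (L * N) ^ 2 = N ^ 2 * Z0 / L ^ 2 / 2 := by field_simp
    exact le_of_mul_le_mul_right (a := (L * N) ^ 2) (by linarith) (by positivity)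
  have xinj : Function.Injective fun i' : ℤ => -(i' : ℝ) / i := fun a b e => by
    have := (div_left_inj' i0').1 e
    exact_mod_cast neg_injective this
  obtain ⟨G, mg⟩ : ∃ G : ℝ → Finset (τ × τ), ∀ x p, p ∈ G x ↔ p ∈ T ×ˢ T ∧
      ∃ s ∈ Ctr.image fun s => (P / i) • s, ‖ψ p.1 + x • ψ p.2 - s‖ ≤ K' :=
    ⟨fun x => (T ×ˢ T).filter fun p => ∃ s ∈ Ctr.image fun s => (P / i) • s,
      ‖ψ p.1 + x • ψ p.2 - s‖ ≤ K', fun x p => by simp only [mem_filter]⟩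
  refine ⟨Z0, Ξ'.image fun i' : ℤ => -(i' : ℝ) / i, G,
    fun _ => Ctr.image fun s => (P / i) • s, hZ, ?_, fun x hx => ?_, fun x hx x' hx' hne => ?_,
    fun x0 r hr => ?_, fun x hx => ⟨?_, fun p hp => ((mg x p).1 hp).1, ?_,
      fun p hp => ((mg x p).1 hp).2⟩⟩
  · rw [card_image_of_injective _ xinj]
    exact le_trans (by gcongr) hΞc'
  · obtain ⟨i', hi', rfl⟩ := mem_image.1 hx
    rw [abs_div, abs_neg, div_le_iff₀ i0]
    have := (hΞ i' (hsub hi')).2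
    nlinarith
  · obtain ⟨a, ha, rfl⟩ := mem_image.1 hx
    obtain ⟨b, hb, rfl⟩ := mem_image.1 hx'
    have h1 : (1 : ℤ) ≤ |b - a| := Int.one_le_abs (sub_ne_zero.2 fun e => hne (by rw [e]))
    have h2 : (1 : ℝ) ≤ |(b : ℝ) - a| := by exact_mod_cast h1
    rw [← sub_div, abs_div, neg_sub_neg]
    have h3 : |(i : ℝ)| ≤ K' * N := by nlinarith
    exact div_le_div₀ (abs_nonneg _) h2 i0 h3
  · have r0 : 0 < r := lt_of_lt_of_le (by positivity) hr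
    have r1 : 1 ≤ r * Q := by
      rw [div_le_iff₀ hN0] at hr
      nlinarith
    have h1 := hnc (-(i * x0)) (r * Q) r1
    rw [mul_div_cancel_right₀ _ hQ.ne'] at h1
    rw [filter_image, card_image_of_injective _ xinj]
    refine le_trans (Nat.cast_le.2 (card_le_card fun a ha => ?_)) (h1.trans (by gcongr))
    obtain ⟨a1, a2⟩ := mem_filter.1 ha
    refine mem_filter.2 ⟨hsub a1, ?_⟩
    have e : (a : ℝ) - -(i * x0) = -((-(a : ℝ) / i - x0) * i) := by field_simp; ring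
    rw [e, abs_neg, abs_mul]
    gcongr
  · exact (Nat.cast_le.2 card_image_le).trans (hC.trans (by gcongr))
  · obtain ⟨a, ha, rfl⟩ := mem_image.1 hx
    rw [hΞ'] at ha
    refine le_trans (by gcongr; linarith) ((mem_filter.1 ha).2.trans
      (Nat.cast_le.2 (inj a _ fun q hq e => ?_)))
    refine (mg _ _).2 ⟨mem_product.2 ⟨(mG q (hF hq)).1.2, (mG q (hF hq)).2.2⟩, ?_⟩
    obtain ⟨s, hs, hs'⟩ := hGs q (hF hq)
    refine ⟨_, mem_image_of_mem _ hs, ?_⟩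
    rw [hFi' q hq, e] at hs'
    have e1 : ψ q.1.2 + (-(a : ℝ) / i) • ψ q.2.2 - (P / i) • s =
        (P / i) • (((i : ℝ) / P) • ψ q.1.2 - ((a : ℝ) / P) • ψ q.2.2 - s) := by
      ext j
      simp only [Pi.add_apply, Pi.sub_apply, Pi.smul_apply, smul_eq_mul]
      field_simp
      ring
    rw [e1, norm_smul, Real.norm_eq_abs, abs_div, abs_of_pos hP]
    have h1 : P / |(i : ℝ)| ≤ K' := by
      rw [div_le_iff₀ i0]
      nlinarith
    exact (mul_le_of_le_one_right (by positivity) hs').trans h1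

end Vale.Agent.P127
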